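import Crest.Agent.N233.Pb.Car
import Crest.Agent.N233.Lo.Wl
import Crest.Agent.N233.Lo.Mir

/-!
# Row 233 (helper40): the model cocycles pull back to a subdivision
-/

set_option autoImplicit false
open Set

noncomputable section

namespace Crest.Agent.N233.Pb

open N255 N255.Nv N255.En N255.Pt N255.Lv

variable {ι S P : Type} [DecidableEq ι] [MulAction (FreeGroup ι) S] [MulAction (FreeGroup ι) P]

/-- the walls `w'` subdivide the walls `w` -/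
structure Sw (w' : Wl ι P) (w : Wl ι S) extends Ca ℤ (En.Cl w.Γ) (En.Cl w'.Γ) where
  mem_T : ∀ e a, a ∈ w'.T e ↔ car a ⊆ w.T e
  mem_B : ∀ e a, a ∈ w'.B e ↔ (car a ∩ w.B e).Nonempty
  ap_smul : ∀ (f : FreeGroup ι) a, ap (f • a) = f • ap a

namespace Sw
variable {w' : Wl ι P} {w : Wl ι S} (C : Sw w' w)

theorem ap_nB {e : Ed ι} {a : P} (h : a ∉ w'.B e) : C.ap a ∉ w.B e :=
  fun k => h ((C.mem_B e a).2 ⟨_, C.ap_mem a, k⟩)

theorem ap_T {e : Ed ι} {a : P} (h : a ∈ w'.T e) : C.ap a ∈ w.T e := (C.mem_T e a).1 h (C.ap_mem a)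

theorem ap_cl {a b : P} (h : En.Cl w'.Γ a b) : En.Cl w.Γ (C.ap a) (C.ap b) :=
  C.cq a b h _ (C.ap_mem a) _ (C.ap_mem b)

theorem T_eq (e : Ed ι) : w'.T e = C.up (w.T e) := Set.ext (C.mem_T e)

theorem mod_eq (J : Finset (Ed ι)) : w'.Mod J = C.up (w.Mod J) :=
  Set.ext fun a => ⟨fun h x hx e he k => h e he ((C.mem_B e a).2 ⟨x, hx, k⟩),
    fun h e he k => let ⟨_, hx, k⟩ := (C.mem_B e a).1 k; h hx e he k⟩

theorem ap_mod {J : Finset (Ed ι)} {a : P} (h : a ∈ w'.Mod J) : C.ap a ∈ w.Mod J :=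
  fun e he => C.ap_nB (h e he)

/-- **the model cocycles of the subdivision** -/
def md (M : Md w) : Md w' where
  mer e a b := M.mer e (C.ap a) (C.ap b)
  mer_smul f e a b := by rw [C.ap_smul, C.ap_smul, M.mer_smul]
  mer_add e _ _ _ ha hb hc h1 h2 h3 :=
    M.mer_add e _ _ _ (C.ap_nB ha) (C.ap_nB hb) (C.ap_nB hc) (C.ap_cl h1) (C.ap_cl h2) (C.ap_cl h3)
  mer_zero e e' _ _ h ha hb := M.mer_zero e e' _ _ h (C.ap_nB ha) (C.ap_nB hb)
  ne J hJ := by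
    obtain ⟨v, hv⟩ := M.ne J hJ
    exact ⟨C.j v, C.mod_eq J ▸ (C.car_j v).trans (singleton_subset_iff.2 hv)⟩
  h0 J hJ A _ ψ hψ := by
    rw [C.mod_eq] at hψ ⊢
    obtain ⟨φ, h1, h2⟩ := C.pull0 hψ
    obtain ⟨a, ha⟩ := M.h0 J hJ A φ h1
    exact ⟨a, fun v hv => (h2 v hv).trans (ha _ (C.ap_ct hv))⟩
  h1 J hJ A _ ψ hψ := by
    rw [C.mod_eq] at hψ ⊢
    obtain ⟨φ, η, h1, h2⟩ := C.pull hψ
    obtain ⟨a, θ, ha⟩ := M.h1 J hJ A φ h1
    refine ⟨a, (fun u => θ (C.ap ∘ u)) + η, fun v hv => ?_⟩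
    rw [h2 v hv, ha _ (C.ap_ct hv), map_add, Pi.add_apply, td_comp, add_assoc]
    rfl
  h2 e A _ ψ hψ := by
    rw [C.T_eq] at hψ ⊢
    obtain ⟨φ, η, h1, h2⟩ := C.pull hψ
    obtain ⟨a, θ, ha⟩ := M.h2 e A φ h1
    refine ⟨a, (fun u => θ (C.ap ∘ u)) + η, fun v hv => ?_⟩
    rw [h2 v hv, ha _ (C.ap_ct hv), map_add, Pi.add_apply, td_comp, add_assoc]
    rfl

@[simp] theorem md_mer (M : Md w) (e : Ed ι) (a b : P) :
    (C.md M).mer e a b = M.mer e (C.ap a) (C.ap b) := rfl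

end Sw

section ps
variable [Finite ι] [Fact Lo.NevS] (w : Wl ι S) {Γ : SimpleGraph S} (h : w.Γ = Γ)
  [Lo.Inv (FreeGroup ι) Γ] {col : S → Fin 4} (hp : Pr Γ col)
  (hc : ∀ (f : FreeGroup ι) v, col (f • v) = col v)

/-- the walls of `ps X` subdivide the walls of `X` -/
def swPs : Sw (w.psOf h) w where
  car := PS.car
  ap := Lo.ap col
  j := (hp.ca ℤ _ (Lo.ap_mem col)).j
  refl _ := .inl rfl
  ap_mem := Lo.ap_mem col
  car_j := (hp.ca ℤ _ (Lo.ap_mem col)).car_j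
  fin := PS.car_finite
  cq := by rw [h]; exact (hp.ca ℤ _ (Lo.ap_mem col)).cq
  ac := by rw [h]; exact (hp.ca ℤ _ (Lo.ap_mem col)).ac
  mem_T _ _ := Iff.rfl
  mem_B _ _ := Iff.rfl
  ap_smul f a := Lo.ap_pm (Lo.Inv.nd f) (hc f) a (hp.injOn (PS.car_face _))

/-- **the model cocycles of `ps X`** -/
def mdPs (M : Md w) : Md (w.psOf h) := (swPs w h hp hc).md M

@[simp] theorem mdPs_mer (M : Md w) (e : Ed ι) (a b : PS.PV Γ.IsClique) :
    (mdPs w h hp hc M).mer e a b = M.mer e (Lo.ap col a) (Lo.ap col b) := rfl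

end ps

end Crest.Agent.N233.Pb

end
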