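import Crest.Agent.N233.Pb.Nb
import Crest.Agent.N255.Nv.Ctg

/-!
# Row 233 (helper40): acyclic carriers on tuples; cocycles on a subdivision are pulled back
-/

set_option autoImplicit false
open Set Finsupp

noncomputable section

namespace Crest.Agent.N233.Pb

open N255.Nv

/-- a subdivision with acyclic carriers and a simplicial approximation `ap` of the identity -/
structure Ca (k : Type) [CommRing k] {S P : Type} (R : S → S → Prop) (R' : P → P → Prop) where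
  car : P → Set S
  ap : P → S
  j : S → P
  refl : ∀ a, R' a a
  ap_mem : ∀ a, ap a ∈ car a
  car_j : ∀ v, car (j v) ⊆ {v}
  fin : ∀ a, (car a).Finite
  cq : ∀ a b, R' a b → ∀ x ∈ car a, ∀ y ∈ car b, R x y
  ac : ∀ s : Set S, s.Finite → s.Nonempty → Cq R s →
    Ac (tb k) (ta k) (Fl R' {a | car a ⊆ s}) (Fl R' {a | car a ⊆ s})

variable {k : Type} [CommRing k] {S P : Type} {R : S → S → Prop} {R' : P → P → Prop}

namespace Ca
variable (C : Ca k R R')

/-- the vertices carried by `U` -/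
def up (U : Set S) : Set P := {a | C.car a ⊆ U}

theorem up_mono {U U' : Set S} (h : U ⊆ U') : C.up U ⊆ C.up U' := fun _ ha => ha.trans h

/-- the subdivision map -/
def sd : ∀ n, (Tu S n →₀ k) →ₗ[k] (Tu P n →₀ k)
  | 0 => tm k C.j 0
  | n + 1 => pick (tb k n) (sd n ∘ₗ tb k n) fun ω => supported k k (Fl R' (C.up (range ω)) (n + 1))

theorem sd_step {n : ℕ} (h : ∀ U, ∀ c ∈ supported k k (Fl R U n),
    C.sd n c ∈ supported k k (Fl R' (C.up U) n) ∧
      (c ∈ rc (tb k) (ta k) n → C.sd n c ∈ rc (tb k) (ta k) n)) (U : Set S) :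
    ∀ c ∈ supported k k (Fl R U (n + 1)), C.sd (n + 1) c ∈ supported k k (Fl R' (C.up U) (n + 1)) ∧
      tb k n (C.sd (n + 1) c) = C.sd n (tb k n c) := by
  have key : ∀ ω ∈ Fl R U (n + 1), C.sd (n + 1) (single ω 1) ∈
      supported k k (Fl R' (C.up (range ω)) (n + 1)) ∧
      tb k n (C.sd (n + 1) (single ω 1)) = C.sd n (tb k n (single ω 1)) := fun ω hω => by
    have := h (range ω) _ (cl_fl (range ω) n _ (single_mem_supported k 1 ⟨Subset.rfl, hω.2⟩))
    exact pick_spec (d := tb k n) (z := C.sd n ∘ₗ tb k n) (a := ω)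
      (N := fun ω => supported k k (Fl R' (C.up (range ω)) (n + 1)))
      (C.ac _ (finite_range ω) (range_nonempty ω) hω.2 n _ this.1 (this.2 (tb_rc n _)))
  exact fun c hc => ⟨mem_of (fun ω hω => supported_mono (Fl.mono (C.up_mono hω.1) _) (key ω hω).1) hc,
    eq_of (F := tb k n ∘ₗ C.sd (n + 1)) (F' := C.sd n ∘ₗ tb k n) (fun ω hω => (key ω hω).2) hc⟩

theorem sd_spec : ∀ n U, ∀ c ∈ supported k k (Fl R U n),
    C.sd n c ∈ supported k k (Fl R' (C.up U) n) ∧
      (c ∈ rc (tb k) (ta k) n → C.sd n c ∈ rc (tb k) (ta k) n)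
  | 0, U, c, hc => by
    refine ⟨mem_of (fun ω hω => ?_) hc, fun h => (ta_tm C.j c).trans h⟩
    rw [sd, tm_single]
    refine single_mem_supported k 1 ⟨?_, ?_⟩
    · rintro _ ⟨i, rfl⟩
      exact (C.car_j _).trans (singleton_subset_iff.2 (hω.1 ⟨i, rfl⟩))
    · rintro _ ⟨i, rfl⟩ _ ⟨i', rfl⟩
      rw [Fin.fin_one_eq_zero i, Fin.fin_one_eq_zero i']
      exact C.refl _
  | n + 1, U, c, hc => by
    have := C.sd_step (sd_spec n) U c hc
    refine ⟨this.1, fun h => this.2.trans ?_⟩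
    rw [show tb k n c = 0 from h, map_zero]

theorem tb_sd {n : ℕ} {U : Set S} {c : Tu S (n + 1) →₀ k} (hc : c ∈ supported k k (Fl R U (n + 1))) :
    tb k n (C.sd (n + 1) c) = C.sd n (tb k n c) := (C.sd_step (C.sd_spec n) U c hc).2

/-- the carrier of a tuple -/
def cu {n : ℕ} (t : Tu P n) : Set S := ⋃ i, C.car (t i)

theorem ap_fl {n : ℕ} {U : Set S} {t : Tu P n} (h : t ∈ Fl R' (C.up U) n) : C.ap ∘ t ∈ Fl R U n :=
  ⟨by rintro _ ⟨i, rfl⟩; exact h.1 ⟨i, rfl⟩ (C.ap_mem _), by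
    rintro _ ⟨i, rfl⟩ _ ⟨i', rfl⟩
    exact C.cq _ _ (h.2 _ ⟨i, rfl⟩ _ ⟨i', rfl⟩) _ (C.ap_mem _) _ (C.ap_mem _)⟩

theorem tm_fl {n : ℕ} {U : Set S} {c : Tu P n →₀ k} (h : c ∈ supported k k (Fl R' (C.up U) n)) :
    tm k C.ap n c ∈ supported k k (Fl R U n) :=
  mem_of (fun t ht => by rw [tm_single]; exact single_mem_supported k 1 (C.ap_fl ht)) h

/-- the homotopy, composed with the boundary -/
def hp : ∀ n, (Tu P n →₀ k) →ₗ[k] (Tu P n →₀ k)
  | 0 => 0
  | n + 1 => pick (tb k n) (LinearMap.id - C.sd n ∘ₗ tm k C.ap n - hp n)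
      (fun t => supported k k (Fl R' (C.up (C.cu t)) (n + 1))) ∘ₗ tb k n

/-- the homotopy -/
def ho (n : ℕ) : (Tu P n →₀ k) →ₗ[k] (Tu P (n + 1) →₀ k) :=
  pick (tb k n) (LinearMap.id - C.sd n ∘ₗ tm k C.ap n - C.hp n)
    fun t => supported k k (Fl R' (C.up (C.cu t)) (n + 1))

theorem hp_succ (n : ℕ) (c : Tu P (n + 1) →₀ k) : C.hp (n + 1) c = C.ho n (tb k n c) := rfl

theorem hp_tb : ∀ (n : ℕ) (c : Tu P (n + 1) →₀ k), C.hp n (tb k n c) = 0
  | 0, _ => rfl
  | n + 1, c => by rw [hp_succ, tb_tb, map_zero]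

theorem ho_step {n : ℕ} (h : ∀ U, ∀ c ∈ supported k k (Fl R' (C.up U) n),
    C.hp n c ∈ supported k k (Fl R' (C.up U) n) ∧
      c - C.sd n (tm k C.ap n c) - C.hp n c ∈ rc (tb k) (ta k) n) (U : Set S) :
    ∀ c ∈ supported k k (Fl R' (C.up U) n), C.ho n c ∈ supported k k (Fl R' (C.up U) (n + 1)) ∧
      tb k n (C.ho n c) = c - C.sd n (tm k C.ap n c) - C.hp n c := by
  have key : ∀ t ∈ Fl R' (C.up U) n, C.ho n (single t 1) ∈
      supported k k (Fl R' (C.up (C.cu t)) (n + 1)) ∧ tb k n (C.ho n (single t 1)) =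
        (LinearMap.id (R := k) (M := Tu P n →₀ k) - C.sd n ∘ₗ tm k C.ap n - C.hp n) (single t 1) :=
      fun t ht => by
    have m : single t (1 : k) ∈ supported k k (Fl R' (C.up (C.cu t)) n) :=
      single_mem_supported k 1 ⟨by
        rintro _ ⟨i, rfl⟩; exact subset_iUnion (fun i => C.car (t i)) i, ht.2⟩
    have := h _ _ m
    refine pick_spec (d := tb k n) (z := LinearMap.id - C.sd n ∘ₗ tm k C.ap n - C.hp n) (a := t)
      (N := fun t => supported k k (Fl R' (C.up (C.cu t)) (n + 1)))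
      (C.ac (C.cu t) (finite_iUnion fun i => C.fin _)
      ⟨_, mem_iUnion.2 ⟨0, C.ap_mem _⟩⟩ ?_ n _
      (sub_mem (sub_mem m (C.sd_spec n _ _ (C.tm_fl m)).1) this.1) this.2)
    intro x hx y hy
    obtain ⟨i, hi⟩ := mem_iUnion.1 hx
    obtain ⟨i', hi'⟩ := mem_iUnion.1 hy
    exact C.cq _ _ (ht.2 _ ⟨i, rfl⟩ _ ⟨i', rfl⟩) _ hi _ hi'
  exact fun c hc => ⟨mem_of (fun t ht => supported_mono (Fl.mono (C.up_mono
      (iUnion_subset fun i => ht.1 ⟨i, rfl⟩)) _) (key t ht).1) hc,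
    eq_of (F := tb k n ∘ₗ C.ho n) (fun t ht => (key t ht).2) hc⟩

theorem hp_spec : ∀ n U, ∀ c ∈ supported k k (Fl R' (C.up U) n),
    C.hp n c ∈ supported k k (Fl R' (C.up U) n) ∧
      c - C.sd n (tm k C.ap n c) - C.hp n c ∈ rc (tb k) (ta k) n
  | 0, U, c, _ => ⟨zero_mem _, show ta k (c - tm k C.j 0 _ - 0) = 0 by
      rw [sub_zero, map_sub, ta_tm, ta_tm, sub_self]⟩
  | n + 1, U, c, hc => by
    have := C.ho_step (hp_spec n) U _ (cl_fl _ n c hc)
    refine ⟨this.1, show tb k n _ = 0 from ?_⟩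
    rw [map_sub, map_sub, hp_succ, this.2, C.tb_sd (C.tm_fl hc), tb_tm, hp_tb, sub_zero, sub_self]

variable {A : Type} [AddCommGroup A] [Module k A] {n : ℕ} {U : Set S}

/-- the cochain on the base -/
def dn (ψ : Tu P n → A) (ω : Tu S n) : A := linearCombination k ψ (C.sd n (single ω 1))

theorem lc_dn (ψ : Tu P n → A) (c : Tu S n →₀ k) :
    linearCombination k (C.dn ψ) c = linearCombination k ψ (C.sd n c) :=
  tu_ext (T := linearCombination k ψ ∘ₗ C.sd n) (fun τ => by simp [dn]) c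

theorem td_dn {ψ : Tu P n → A} (h : ∀ v ∈ CT R' (C.up U) (n + 1), td k ψ v = 0) :
    ∀ v ∈ CT R U (n + 1), td k (C.dn ψ) v = 0 := fun v hv => by
  have m : single v (1 : k) ∈ supported k k (Fl R U (n + 1)) := single_mem_supported k 1 hv
  rw [td_eq, lc_dn, ← C.tb_sd m, lc_tb]
  exact lc_zero h (C.sd_spec _ U _ m).1

theorem eq_dn {ψ : Tu P n → A} (h : ∀ v ∈ CT R' (C.up U) (n + 1), td k ψ v = 0) :
    ∀ t ∈ CT R' (C.up U) n, ψ t = C.dn ψ (C.ap ∘ t) + linearCombination k ψ (C.hp n (single t 1)) :=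
  fun t ht => by
  have := C.ho_step (C.hp_spec n) U _ (single_mem_supported k (1 : k) (show t ∈ Fl _ _ _ from ht))
  have e := lc_zero h this.1
  rw [← lc_tb, this.2, map_sub, map_sub, tm_single, linearCombination_single, one_smul, sub_sub,
    sub_eq_zero] at e
  exact e

/-- **closed zero-cochains are pulled back** -/
theorem pull0 {ψ : Tu P 0 → A} (h : ∀ v ∈ CT R' (C.up U) 1, td k ψ v = 0) :
    ∃ φ : Tu S 0 → A, (∀ v ∈ CT R U 1, td k φ v = 0) ∧ ∀ t ∈ CT R' (C.up U) 0, ψ t = φ (C.ap ∘ t) :=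
  ⟨C.dn ψ, C.td_dn h, fun t ht => (C.eq_dn h t ht).trans (by
    rw [show C.hp 0 (single t 1) = 0 from rfl, map_zero, add_zero])⟩

/-- **cocycles are pulled back up to coboundaries** -/
theorem pull {ψ : Tu P (n + 1) → A} (h : ∀ v ∈ CT R' (C.up U) (n + 2), td k ψ v = 0) :
    ∃ (φ : Tu S (n + 1) → A) (η : Tu P n → A), (∀ v ∈ CT R U (n + 2), td k φ v = 0) ∧
      ∀ t ∈ CT R' (C.up U) (n + 1), ψ t = φ (C.ap ∘ t) + td k η t := by
  refine ⟨C.dn ψ, fun u => linearCombination k ψ (C.ho n (single u 1)), C.td_dn h, fun t ht => ?_⟩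
  rw [C.eq_dn h t ht, td_eq, hp_succ]
  congr 1
  exact (tu_ext (T := linearCombination k ψ ∘ₗ C.ho n) (fun τ => by simp) _).symm

theorem ap_ct {t : Tu P n} (h : t ∈ CT R' (C.up U) n) : C.ap ∘ t ∈ CT R U n := C.ap_fl h

end Ca

theorem td_comp {A : Type} [AddCommGroup A] [Module k A] {n : ℕ} (f : P → S) (η : Tu S n → A)
    (t : Tu P (n + 1)) : td k (fun u => η (f ∘ u)) t = td k η (f ∘ t) := rfl

/-- the subdivision of a four-coloured flag complex has acyclic carriers -/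
def Pr.ca (k : Type) [CommRing k] {V : Type} {G : SimpleGraph V} {col : V → Fin 4} (h : Pr G col)
    (ap : PS.PV G.IsClique → V) (hap : ∀ a, ap a ∈ PS.car a) :
    Ca k (fun a b => a = b ∨ G.Adj a b) (RP G) where
  car := PS.car
  ap := ap
  j v := PS.corner v (by simp)
  refl _ := .inl rfl
  ap_mem := hap
  car_j v := (PS.car_corner v _).subset
  fin := PS.car_finite
  cq a b r x hx y hy := or_iff_not_imp_left.2 fun e => by
    rcases r with rfl | r
    exacts [PS.car_face a hx hy e, r.1 (.inl hx) (.inr hy) e]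
  ac s hf hne hq := by
    classical
    lift s to Finset V using hf
    exact (h.nev_up (fun x hx y hy e => (hq x hx y hy).resolve_left e) (Finset.coe_nonempty.1 hne)).ac
      (fun _ => .inl rfl) fun _ _ r => r.imp Eq.symm SimpleGraph.Adj.symm

end Crest.Agent.N233.Pb

end
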