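import Crest.Agent.N233.Lo.Defs

/-!
# Row 233 (helper40): the subdivision of a four-coloured flag complex is modelled on one block
-/

set_option autoImplicit false
open Finsupp

noncomputable section

namespace Crest.Agent.N233.Pb

open PS N255.Ch
open Lo (BG bc)

theorem fin_R (i : Fin 116) : (i : ℕ) ∈ R := mem_R.2 i.2

theorem BG_adj (i j : Fin 116) : BG.Adj i j ↔ Ad (vt i) (vt j) := (ad_vt (fin_R i) (fin_R j)).symm

theorem mem_bc {i : Fin 116} {c : Fin 4} : c ∈ bc i ↔ dg (cd i) c ≠ 0 := by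
  rw [bc, mem_support_iff, vt, ne_eq, dec_eq_zero]

theorem vt_inj {i j : Fin 116} (h : vt i = vt j) : i = j := by
  by_contra e
  have h1 := le_vt (fin_R i) (fin_R j) fun k => e (Fin.ext k)
  have h2 := vx_vt (fin_R j)
  rw [h] at h1
  rw [Vx.eq_def] at h2
  rw [h2, phi4, phi5] at h1
  linarith [Real.goldenRatio_pos]

/-- the vertices of the block over the face `r` -/
def bU (r : Finset (Fin 4)) : Finset (Fin 116) := Finset.univ.filter fun i => bc i ⊆ r

theorem mem_bU {r : Finset (Fin 4)} {i : Fin 116} : i ∈ bU r ↔ bc i ⊆ r := by simp [bU]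

variable {V : Type} {G : SimpleGraph V} {col : V → Fin 4}

/-- proper colourings -/
def Pr (G : SimpleGraph V) (col : V → Fin 4) : Prop := ∀ a b, G.Adj a b → col a ≠ col b

theorem Pr.injOn (h : Pr G col) {s : Set V} (hs : G.IsClique s) : Set.InjOn col s :=
  fun a ha b hb e => by_contra fun n => h a b (hs ha hb n) e

theorem Pr.cx (h : Pr G col) : Cx G.IsClique :=
  ⟨fun h1 h2 => h2.subset h1, fun hs => ⟨col, h.injOn hs⟩⟩

open Classical in
/-- the index of a code in the block -/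
def ixc (x : Fin 4 →₀ Fin 8) : Fin 116 := if h : ∃ i : Fin 116, vt i = x then h.choose else 0

theorem vt_ixc {x : Fin 4 →₀ Fin 8} (h : Vx x) : vt (ixc x) = x := by
  obtain ⟨i, hi, e⟩ := exists_vt h
  have : ∃ i : Fin 116, vt i = x := ⟨⟨i, mem_R.1 hi⟩, e⟩
  rw [ixc, dif_pos this]
  exact this.choose_spec

/-- **the colouring of the subdivision** -/
def ix {X : Set V → Prop} (col : V → Fin 4) (a : PV X) : Fin 116 := ixc (mapDomain col a.1)

theorem Pr.vt_ix (h : Pr G col) (a : PV G.IsClique) : vt (ix col a) = mapDomain col a.1 :=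
  vt_ixc ((vx_map (h.injOn a.2.1)).2 a.2.2)

theorem Pr.adj_ix (h : Pr G col) {a b : PV G.IsClique} (hab : G.IsClique (car a ∪ car b)) :
    BG.Adj (ix col a) (ix col b) ↔ (ps G.IsClique).Adj a b := by
  rw [BG_adj, h.vt_ix, h.vt_ix, ad_map (h.injOn hab) Set.subset_union_left Set.subset_union_right]
  exact ⟨fun e => ⟨hab, e⟩, fun e => e.2⟩

theorem Pr.ix_ne (h : Pr G col) (a b : PV G.IsClique) (hab : (ps G.IsClique).Adj a b) :
    ix col a ≠ ix col b := ((h.adj_ix hab.1).2 hab).ne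

theorem Pr.ix_inj (h : Pr G col) {a b : PV G.IsClique} (hab : G.IsClique (car a ∪ car b))
    (e : ix col a = ix col b) : a = b := by
  have := h.vt_ix a
  rw [e, h.vt_ix] at this
  exact PV.ext (map_inj (h.injOn hab) Set.subset_union_left Set.subset_union_right this.symm)

/-- the colouring is natural -/
theorem ix_pm {W : Type} {X : Set V → Prop} {Y : Set W → Prop} {f : V → W} (hf : Nd X Y f)
    {col' : W → Fin 4} (a : PV X) (hc : ∀ v ∈ car a, col' (f v) = col v) :
    ix col' (pm hf a) = ix col a := by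
  unfold ix
  congr 1
  exact mapDomain_comp.symm.trans (mapDomain_congr hc)

variable [DecidableEq V]

theorem Pr.bc_ix (h : Pr G col) (a : PV G.IsClique) : bc (ix col a) = a.1.support.image col := by
  rw [bc, h.vt_ix, mapDomain_support_of_injOn _ (h.injOn a.2.1)]

theorem Pr.exists_ix (h : Pr G col) {ρ : Finset V} (hρ : G.IsClique (ρ : Set V)) {i : Fin 116}
    (hi : bc i ⊆ ρ.image col) : ∃ a : PV G.IsClique, a.1.support ⊆ ρ ∧ ix col a = i := by
  obtain ⟨a, ha, e⟩ := exists_map (h.injOn hρ) (y := vt i) (by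
    rw [← Finset.coe_image]; exact Finset.coe_subset.2 hi)
  have va : Vx a := (vx_map ((h.injOn hρ).mono ha)).1 (e ▸ vx_vt (fin_R i))
  refine ⟨⟨a, hρ.subset ha, va⟩, Finset.coe_subset.1 ha, vt_inj ?_⟩
  rw [h.vt_ix]; exact e

/-- the carrier of a simplex of the subdivision -/
def cr {X : Set V → Prop} (t : Finset (PV X)) : Finset V := t.biUnion fun a => a.1.support

theorem mem_cr {X : Set V → Prop} {t : Finset (PV X)} {v : V} : v ∈ cr t ↔ ∃ a ∈ t, v ∈ car a :=
  Finset.mem_biUnion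

theorem cr_subset {X : Set V → Prop} {t : Finset (PV X)} {ρ : Finset V} :
    cr t ⊆ ρ ↔ ∀ a ∈ t, a.1.support ⊆ ρ := Finset.biUnion_subset

theorem cr_mono {X : Set V → Prop} {t t' : Finset (PV X)} (h : t ⊆ t') : cr t ⊆ cr t' :=
  Finset.biUnion_subset_biUnion_of_subset_left _ h

theorem cr_empty {X : Set V → Prop} : cr (∅ : Finset (PV X)) = ∅ := rfl

theorem cr_insert {X : Set V → Prop} [DecidableEq (PV X)] (a : PV X) (t : Finset (PV X)) :
    cr (insert a t) = a.1.support ∪ cr t := Finset.biUnion_insert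

theorem cr_nonempty {X : Set V → Prop} {t : Finset (PV X)} (h : t.Nonempty) : (cr t).Nonempty :=
  let ⟨a, ha⟩ := h; let ⟨v, hv⟩ := car_nonempty a; ⟨v, mem_cr.2 ⟨a, ha, hv⟩⟩

theorem Pr.cr_clique (h : Pr G col) {t : Finset (PV G.IsClique)}
    (ht : (ps G.IsClique).IsClique (t : Set (PV G.IsClique))) : G.IsClique (cr t : Set V) := by
  rcases t.eq_empty_or_nonempty with rfl | hne
  · simp [cr_empty]
  obtain ⟨a, -, hm⟩ := exists_top h.cx ht t.finite_toSet hne
  refine (car_face a).subset fun v hv => ?_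
  obtain ⟨b, hb, e⟩ := mem_cr.1 hv
  exact hm b hb e

/-! ### transport of exactness along an embedding -/

section tr
variable {S S' K : Type} [DecidableEq S] [DecidableEq S'] [LinearOrder K] {Γ : SimpleGraph S}
  {Γ' : SimpleGraph S'} {c : S → K} {c' : S' → K} (j : S' ↪ S)

omit [DecidableEq S] [DecidableEq S'] in
theorem pf_mem' {P : Set (Finset S')} {a : Finset S' →₀ ℤ} (h : a ∈ Sp P) :
    pf j a ∈ Sp (Finset.map j '' P) :=
  map_mem (fun t ht t' h' => by
    rw [pf_single] at h'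
    exact ⟨t, ht, (single_apply_ne_zero.1 h').1.symm⟩) h

omit [DecidableEq S] [DecidableEq S'] in
theorem exists_pf' {P : Set (Finset S')} {b : Finset S →₀ ℤ} (h : b ∈ Sp (Finset.map j '' P)) :
    ∃ a ∈ Sp P, pf j a = b := by
  refine ⟨comapDomain (Finset.map j) b (Finset.map_injective j).injOn, mem_Sp.2 fun t ht => ?_,
    mapDomain_comapDomain _ (Finset.map_injective j) b fun t ht => ?_⟩
  · obtain ⟨u, hu, e⟩ := mem_Sp.1 h (t.map j) ht
    rwa [← Finset.map_injective j e]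
  · obtain ⟨u, -, rfl⟩ := mem_Sp.1 h t (mem_support_iff.1 ht)
    exact ⟨u, rfl⟩

theorem ex_iff (hadj : ∀ x y, Γ.Adj (j x) (j y) ↔ Γ'.Adj x y) (hc : ∀ x, c (j x) = c' x)
    (U : Finset S') (P : Set (Finset S')) (z : Finset S → ℤ) :
    Ex (dq Γ c (U.map j)) (pe z) (Sp (Finset.map j '' P)) ↔
      Ex (dq Γ' c' U) (pe fun t => z (t.map j)) (Sp P) := by
  refine ⟨fun h a ha hd hs => ?_, fun h b hb hd hs => ?_⟩
  · obtain ⟨b, hb, e⟩ := h _ (pf_mem' j ha) (by rw [dq_pf j hadj hc, hd, map_zero])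
      (by rwa [pe_pf])
    obtain ⟨a', ha', rfl⟩ := exists_pf' j hb
    rw [dq_pf j hadj hc] at e
    exact ⟨a', ha', pf_inj j e⟩
  · obtain ⟨a, ha, rfl⟩ := exists_pf' j hb
    rw [dq_pf j hadj hc, ← map_zero (pf j)] at hd
    obtain ⟨a', ha', rfl⟩ := h a ha (pf_inj j hd) (by rwa [pe_pf] at hs)
    exact ⟨_, pf_mem' j ha', dq_pf j hadj hc U a'⟩

theorem pe_dq' (hadj : ∀ x y, Γ.Adj (j x) (j y) ↔ Γ'.Adj x y) (hc : ∀ x, c (j x) = c' x)
    (z : Finset S → ℤ) (U u : Finset S') :
    pe z (dq Γ c (U.map j) (single (u.map j) 1)) =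
      pe (fun t => z (t.map j)) (dq Γ' c' U (single u 1)) := by
  rw [← pf_single, dq_pf j hadj hc, pe_pf]

end tr

end Crest.Agent.N233.Pb

end
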